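import Vale.Agent.P338.Duel.FinalD

/-! Integer multiplication is at least as hard as matrix transposition (multitape machines):
quantitative reduction and conditional lower bound for all large `n`. -/

namespace Vale.Agent.Results.P338.ConditionalOmega

open Vale.Agent.P338

theorem result :
    (∀ (k : ℕ) [NeZero k] (A : Machine k), A.Multiplies →
      ∃ (K : ℕ) (_ : NeZero K) (B : Machine K), (∀ n : ℕ, 1 ≤ n → B.TransposesAt n) ∧
        ∃ C : ℕ, ∀ n R μ : ℕ, 1 ≤ n →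
          (∀ m : ℕ, 1 ≤ m → m ≤ 2080 * n ^ 2 → A.worstTime m ≤ μ * m) →
          B.transTime n ≤
            C * (n ^ 2 * (Nat.log 2 (Nat.log 2 n + 1) + R * μ + (Nat.log 2 n + 1) / 2 ^ R + 1))) ∧
    ((∀ (K : ℕ) [NeZero K] (B : Machine K), (∀ n : ℕ, 1 ≤ n → B.TransposesAt n) →
        ∃ c : ℝ, 0 < c ∧ ∃ N : ℕ, ∀ n : ℕ, N ≤ n →
          c * ((n : ℝ) ^ 2 * Real.log n) ≤ (B.transTime n : ℝ)) →
      ∀ (k : ℕ) [NeZero k] (A : Machine k), A.Multiplies →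
        (∃ c : ℝ, 0 < c ∧ ∃ N : ℕ, ∀ n : ℕ, N ≤ n →
          ∃ m : ℕ, 1 ≤ m ∧ m ≤ n ∧ c * ((m : ℝ) * Real.log n) ≤ (A.worstTime m : ℝ)) ∧
        (∀ M : ℕ → ℝ, (∀ n : ℕ, (A.worstTime n : ℝ) ≤ M n) →
          (∀ m n : ℕ, 1 ≤ m → m ≤ n → M m / m ≤ M n / n) →
          ∃ c : ℝ, 0 < c ∧ ∃ N : ℕ, ∀ n : ℕ, N ≤ n → c * ((n : ℝ) * Real.log n) ≤ M n)) := by
  refine ⟨fun k _ A hA => TM.transposer_master k A hA, ?_⟩
  intro hard k _ A hA
  obtain ⟨c, hc, h⟩ := TM.omega_conditional (fun K _ B hB => by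
    obtain ⟨c, hc, N, hN⟩ := hard K B hB
    exact ⟨c, hc, Filter.eventually_atTop.2 ⟨N, hN⟩⟩) k A hA
  refine ⟨⟨c, hc, Filter.eventually_atTop.1 h⟩, ?_⟩
  intro M hM hreg
  exact ⟨c, hc, Filter.eventually_atTop.1 (TM.omega_regular A.worstTime c h M hM hreg)⟩

end Vale.Agent.Results.P338.ConditionalOmega
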