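import Vale.Agent.P338.Final

namespace Vale.Agent.Results.P338.OneTapeQuadratic

open Vale.Agent.P338

/-- Q1 holds, with a quadratic bound, for every machine of the model that has exactly one tape. -/
theorem result : ∀ M : Machine 1, M.Multiplies →
    ∃ c : ℝ, 0 < c ∧ ∃ N : ℕ, 2 ≤ N ∧ ∀ n : ℕ, N ≤ n →
      c * (n : ℝ) ^ 2 ≤ (M.worstTime n : ℝ) ∧ c * (n : ℝ) * Real.log n ≤ (M.worstTime n : ℝ) :=
  one_tape_quadratic

end Vale.Agent.Results.P338.OneTapeQuadratic
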