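import Vale.Agent.P338.Duel.MainDSpec
import Vale.Agent.P338.Duel.TimingD

/-! Matrix transposition reduces to integer multiplication on multitape Turing machines:
transfer of upper bounds and of lower bounds that hold for all large sizes. -/

namespace Vale.Agent.Results.P338.TransposeOmega

open Vale.Agent.P338

/-- For every multiplier `A` there is one transposing machine `B` with both transfers. -/
theorem reduction (k : ℕ) [NeZero k] (A : Machine k) (hA : A.Multiplies) :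
    ∃ (K : ℕ) (_ : NeZero K) (B : Machine K), (∀ n : ℕ, 1 ≤ n → B.TransposesAt n) ∧
      ((fun n : ℕ => (A.worstTime n : ℝ)) =o[Filter.atTop] (fun n : ℕ => (n : ℝ) * Real.log n) →
        (fun n : ℕ => (B.transTime n : ℝ)) =o[Filter.atTop]
          (fun n : ℕ => (n : ℝ) ^ 2 * Real.log n)) ∧
      ((∃ c : ℝ, 0 < c ∧ ∃ N : ℕ, ∀ n : ℕ, N ≤ n →
          c * ((n : ℝ) ^ 2 * Real.log n) ≤ (B.transTime n : ℝ)) →
        ∃ c : ℝ, 0 < c ∧ ∃ N : ℕ, ∀ n : ℕ, N ≤ n → ∃ m : ℕ, 1 ≤ m ∧ m ≤ n ∧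
          c * ((m : ℝ) * Real.log n) ≤ (A.worstTime m : ℝ)) := by
  refine ⟨TM.bigK2 k, inferInstance, TM.machD A, TM.machD_transposes A hA, ?_, ?_⟩
  · intro h
    refine Asymptotics.IsBigO.trans_isLittleO ?_ (TM.cMainD_isLittleO A.worstTime h)
    apply Asymptotics.IsBigO.of_bound 1
    filter_upwards [Filter.eventually_ge_atTop 1] with n hn
    rw [Real.norm_of_nonneg (Nat.cast_nonneg _), Real.norm_of_nonneg (Nat.cast_nonneg _), one_mul]
    exact_mod_cast TM.machD_time A hA n hn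
  · rintro ⟨c, hc, N, hN⟩
    obtain ⟨c', hc', N', hard⟩ := TM.hard_sizesD A.worstTime (TM.machD A).transTime
      (fun κ => TM.machD_time A hA (2 ^ κ) Nat.one_le_two_pow) c hc N hN
    refine ⟨c', hc', N', fun n hn => ?_⟩
    obtain ⟨m, h2, hle, hm⟩ := hard n hn
    exact ⟨m, by omega, hle, hm⟩

theorem result :
    (∀ (k : ℕ) [NeZero k] (A : Machine k), A.Multiplies →
      ∃ (K : ℕ) (_ : NeZero K) (B : Machine K), (∀ n : ℕ, 1 ≤ n → B.TransposesAt n) ∧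
        ((fun n : ℕ => (A.worstTime n : ℝ)) =o[Filter.atTop] (fun n : ℕ => (n : ℝ) * Real.log n) →
          (fun n : ℕ => (B.transTime n : ℝ)) =o[Filter.atTop]
            (fun n : ℕ => (n : ℝ) ^ 2 * Real.log n)) ∧
        ((∃ c : ℝ, 0 < c ∧ ∃ N : ℕ, ∀ n : ℕ, N ≤ n →
            c * ((n : ℝ) ^ 2 * Real.log n) ≤ (B.transTime n : ℝ)) →
          ∃ c : ℝ, 0 < c ∧ ∃ N : ℕ, ∀ n : ℕ, N ≤ n → ∃ m : ℕ, 1 ≤ m ∧ m ≤ n ∧
            c * ((m : ℝ) * Real.log n) ≤ (A.worstTime m : ℝ))) ∧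
    ((∀ (K : ℕ) [NeZero K] (B : Machine K), (∀ n : ℕ, 1 ≤ n → B.TransposesAt n) →
        ∃ c : ℝ, 0 < c ∧ ∃ N : ℕ, ∀ n : ℕ, N ≤ n →
          c * ((n : ℝ) ^ 2 * Real.log n) ≤ (B.transTime n : ℝ)) →
      ∀ (k : ℕ) [NeZero k] (A : Machine k), A.Multiplies →
        ∀ M : ℕ → ℝ, (∀ n : ℕ, (A.worstTime n : ℝ) ≤ M n) →
          (∀ m n : ℕ, 1 ≤ m → m ≤ n → M m / (m : ℝ) ≤ M n / (n : ℝ)) →
          ∃ c : ℝ, 0 < c ∧ ∃ N : ℕ, ∀ n : ℕ, N ≤ n → c * ((n : ℝ) * Real.log n) ≤ M n) := by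
  refine ⟨fun k _ A hA => reduction k A hA, ?_⟩
  intro hT k _ A hA M hM hmono
  obtain ⟨K, hK, B, hB, _, hlow⟩ := reduction k A hA
  obtain ⟨c, hc, N, hard⟩ := hlow (hT K B hB)
  refine ⟨c, hc, N, fun n hn => ?_⟩
  obtain ⟨m, h1, hle, hm⟩ := hard n hn
  have hm0 : (0 : ℝ) < (m : ℝ) := by exact_mod_cast h1
  have hn0 : (0 : ℝ) < (n : ℝ) := by exact_mod_cast le_trans h1 hle
  have h3 : c * Real.log n ≤ M m / (m : ℝ) := by
    rw [le_div_iff₀ hm0]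
    calc c * Real.log n * (m : ℝ) = c * ((m : ℝ) * Real.log n) := by ring
      _ ≤ (A.worstTime m : ℝ) := hm
      _ ≤ M m := hM m
  have h4 := h3.trans (hmono m n h1 hle)
  rw [le_div_iff₀ hn0] at h4
  calc c * ((n : ℝ) * Real.log n) = c * Real.log n * (n : ℝ) := by ring
    _ ≤ M n := h4

end Vale.Agent.Results.P338.TransposeOmega
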