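import Vale.Agent.P338.TM.FinalThmQ

/-! Matrix transposition reduces to integer multiplication on multitape Turing machines. -/

namespace Vale.Agent.Results.P338.TransposeReduction

open Vale.Agent.P338

/-- A sequence of natural numbers that is not `o(g)` is at least `c * g` infinitely often. -/
theorem isLittleO_of_not_frequently (f : ℕ → ℕ) (g : ℕ → ℝ) (hg : ∀ n, 0 ≤ g n)
    (h : ¬ ∃ c : ℝ, 0 < c ∧ ∀ N : ℕ, ∃ n : ℕ, N ≤ n ∧ c * g n ≤ (f n : ℝ)) :
    (fun n : ℕ => (f n : ℝ)) =o[Filter.atTop] g := by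
  rw [Asymptotics.isLittleO_iff]
  intro c hc
  by_contra hcon
  apply h
  refine ⟨c, hc, ?_⟩
  intro N
  by_contra hN
  apply hcon
  filter_upwards [Filter.eventually_ge_atTop N] with n hn
  rw [Real.norm_of_nonneg (Nat.cast_nonneg _), Real.norm_of_nonneg (hg n)]
  by_contra hlt
  exact hN ⟨n, hn, (not_le.mp hlt).le⟩

theorem not_frequently_of_isLittleO (f : ℕ → ℕ) (g : ℕ → ℝ) (hg : ∀ n, 2 ≤ n → 0 < g n)
    (h : (fun n : ℕ => (f n : ℝ)) =o[Filter.atTop] g) :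
    ¬ ∃ c : ℝ, 0 < c ∧ ∀ N : ℕ, ∃ n : ℕ, N ≤ n ∧ c * g n ≤ (f n : ℝ) := by
  rintro ⟨c, hc, hN⟩
  rw [Asymptotics.isLittleO_iff] at h
  have h2 := h (half_pos hc)
  rw [Filter.eventually_atTop] at h2
  obtain ⟨N0, hN0⟩ := h2
  obtain ⟨n, hn, hle⟩ := hN (max N0 2)
  have h3 := hN0 n (le_trans (le_max_left _ _) hn)
  have hpos := hg n (le_trans (le_max_right _ _) hn)
  rw [Real.norm_of_nonneg (Nat.cast_nonneg _), Real.norm_of_nonneg hpos.le] at h3
  nlinarith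

theorem result :
    (∀ (k : ℕ) [NeZero k] (A : Machine k), A.Multiplies →
      (fun n : ℕ => (A.worstTime n : ℝ)) =o[Filter.atTop] (fun n : ℕ => (n : ℝ) * Real.log n) →
      ∃ (K : ℕ) (_ : NeZero K) (B : Machine K), (∀ n : ℕ, 1 ≤ n → B.TransposesAt n) ∧
        (fun n : ℕ => (B.transTime n : ℝ)) =o[Filter.atTop]
          (fun n : ℕ => (n : ℝ) ^ 2 * Real.log n)) ∧
    ((∀ (K : ℕ) [NeZero K] (B : Machine K), (∀ n : ℕ, 1 ≤ n → B.TransposesAt n) →
        ∃ c : ℝ, 0 < c ∧ ∀ N : ℕ, ∃ n : ℕ, N ≤ n ∧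
          c * ((n : ℝ) ^ 2 * Real.log n) ≤ (B.transTime n : ℝ)) →
      ∀ (k : ℕ) [NeZero k] (A : Machine k), A.Multiplies →
        ∃ c : ℝ, 0 < c ∧ ∀ N : ℕ, ∃ n : ℕ, N ≤ n ∧
          c * ((n : ℝ) * Real.log n) ≤ (A.worstTime n : ℝ)) := by
  refine ⟨fun k _ A hA h => TM.transposition_of_multiplication_all k A hA h, ?_⟩
  intro hT k _ A hA
  by_contra hcon
  have ho := isLittleO_of_not_frequently A.worstTime (fun n : ℕ => (n : ℝ) * Real.log n)
    (fun n => mul_nonneg (Nat.cast_nonneg _) (Real.log_natCast_nonneg n)) hcon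
  obtain ⟨K, hK, B, hB, hBo⟩ := TM.transposition_of_multiplication_all k A hA ho
  refine not_frequently_of_isLittleO B.transTime (fun n : ℕ => (n : ℝ) ^ 2 * Real.log n) ?_ hBo
    (hT K B hB)
  intro n hn
  have hnR : (2 : ℝ) ≤ (n : ℝ) := by exact_mod_cast hn
  have hlog : 0 < Real.log (n : ℝ) := Real.log_pos (by linarith)
  positivity

end Vale.Agent.Results.P338.TransposeReduction
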